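import Vale.Agent.P352Z.SG.Gen

/-!
# P352Z: tensor fields as covariant multiplets, row TWO (helper40, after helper21)
-/

set_option linter.all false

open MeasureTheory Measure Set Filter Topology
open scoped SchwartzMap ComplexConjugate NNReal ENNReal LineDeriv

namespace Vale.Agent.P352X.ZZ

open Vale.Agent.P352.GF Vale.Agent.P352.BW Vale.Agent.P352.H496 Vale.Agent.P352.H755
open UniformSpace (Completion)
open Complex (I)
open Vale.Agent.P352X.Two

noncomputable section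

variable {D : Type*} [NormedAddCommGroup D] [InnerProductSpace ℂ D] {c : Ctx D}
  {Q : Theory D} {T : Ix → Ix → Fld D} {J : Ix → Fld D}

lemma P2.fld (h : P2 Q T) (m n : Ix) : Q.fld (T m n) := Q.bose_fld _ (h.bose m n)

lemma P1.fld (h : P1 Q J) (m : Ix) : Q.fld (J m) := Q.bose_fld _ (h.bose m)

/-- a tensor field applied to the vacuum -/
def P2.lv (h : P2 Q T) (μ : Fin 2 → Ix) : Sch →L[ℂ] Completion D :=
  Completion.toComplL ∘L Grp.fC (h.fld (μ 0) (μ 1)) Q.vac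

/-- a vector field applied to the vacuum -/
def P1.lv (h : P1 Q J) (μ : Fin 1 → Ix) : Sch →L[ℂ] Completion D :=
  Completion.toComplL ∘L Grp.fC (h.fld (μ 0)) Q.vac

lemma P2.lv_apply (h : P2 Q T) (μ : Fin 2 → Ix) (f : Sch) :
    h.lv μ f = (T (μ 0) (μ 1) (ev f) Q.vac : D) := rfl

lemma P1.lv_apply (h : P1 Q J) (μ : Fin 1 → Ix) (f : Sch) :
    h.lv μ f = (J (μ 0) (ev f) Q.vac : D) := rfl

lemma P2.hk_eq (hT : P2 Q T) (h k : V) {f : Fn} (hf : IsTest f) (v : D) :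
    ∑ m, ∑ n, T m n (hk h k f m n) v =
      ∑ m, ∑ n, ((eta m * h m * (eta n * k n) : ℝ) : ℂ) • T m n f v :=
  Finset.sum_congr rfl fun m _ => Finset.sum_congr rfl fun n _ => Grp.fld_smul (hT.fld m n) _ hf v

lemma P2.lv_hk (hT : P2 Q T) (h k : V) (f : Sch) :
    ((∑ m, ∑ n, T m n (hk h k (ev f) m n) Q.vac : D) : Completion D) =
      ∑ μ, (sy ![h, k] μ : ℂ) • hT.lv μ f := by
  rw [hT.hk_eq h k ⟨f, rfl⟩, sum2]
  simp only [coe_sum, Completion.coe_smul, P2.lv_apply, sy, Fin.prod_univ_two, Matrix.cons_val_zero,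
    Matrix.cons_val_one]

lemma sum1 {M : Type*} [AddCommMonoid M] (F : (Fin 1 → Ix) → M) : ∑ μ, F μ = ∑ m, F ![m] := by
  rw [← (Equiv.funUnique (Fin 1) Ix).symm.sum_comp]
  exact Finset.sum_congr rfl fun m _ => congrArg F (funext fun i => by fin_cases i; rfl)

lemma P1.lv_h (hJ : P1 Q J) (h : V) (f : Sch) :
    ((∑ m, ((eta m * h m : ℝ) : ℂ) • J m (ev f) Q.vac : D) : Completion D) =
      ∑ μ, (sy ![h] μ : ℂ) • hJ.lv μ f := by
  rw [sum1]
  simp only [coe_sum, Completion.coe_smul, P1.lv_apply, sy, Fin.prod_univ_one, Matrix.cons_val_zero,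
    Matrix.cons_val_fin_one]

namespace Two

lemma pp2 (h : P2 c.Q T) : Pp c h.lv := fun μ f =>
  (Completion.inner_coe _ _).trans (h.perp _ _ _ ⟨f, rfl⟩)

lemma pp1 (h : P1 c.Q J) : Pp c h.lv := fun μ f =>
  (Completion.inner_coe _ _).trans (h.perp _ _ ⟨f, rfl⟩)

/-- the tensor `T` applied to the vacuum -/
def LT (c : Ctx D) : (Fin 2 → Ix) → Sch →L[ℂ] Completion D := c.hT.lv

lemma LT_apply (J : Fin 2 → Ix) (f : Sch) :
    LT c J f = (c.T (J 0) (J 1) (ev f) c.Q.vac : D) := rfl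

/-- canonical tensors of dimension four -/
theorem mu_of (h : P2 c.Q T) (hc : ∀ m n s L a f v, 0 < s → IsLor L → IsTest f →
    T m n f (c.Q.U s L a v) = ∑ k, ∑ l, (L k m * L l n : ℂ) •
      c.Q.U s L a (T k l (fun x => f (sim s L a x)) v)) : Mu c 4 h.lv :=
  fun μ s L a f g hs hL e => by
  have := hc (μ 0) (μ 1) s L a (ev f) c.Q.vac hs hL ⟨f, rfl⟩
  rw [c.Q.U_vac s L a hs hL, show (fun x => ev f (sim s L a x)) = ev g from (funext e).symm] at this
  rw [P2.lv_apply, this, sum2]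
  simp only [coe_sum, Completion.coe_smul, P2.lv_apply, Grp.coe hs hL, sub_self, Real.rpow_zero,
    one_mul, Fin.prod_univ_two, Matrix.cons_val_zero, Matrix.cons_val_one, Complex.ofReal_mul]

theorem mu_T (c : Ctx D) [Fact c.can] : Mu c 4 (LT c) := mu_of c.hT c.ct0.cov

lemma Tv_hk (h k : V) (f : Sch) :
    c.Tv (hk h k (ev f)) = ∑ J, (sy ![h, k] J : ℂ) • LT c J f := c.hT.lv_hk h k f

lemma LT_perp (J : Fin 2 → Ix) (f : Sch) : inner ℂ c.Om (LT c J f) = 0 := pp2 c.hT J f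

/-- conservation -/
lemma LT_con [Fact c.can] (n : Ix) {G : V → ℂ} (hG : ∀ m, SN.Bd fun p => G p * (eta m * p m : ℝ))
    (h0 : SN.Bd G) : ∑ m, c.bt.Phi (fun p => G p * (eta m * p m : ℝ)) (LT c ![m, n] gS) = 0 := by
  have e : ∑ m, LT c ![m, n] (∂_{(bas m 1 : V)} gS) = 0 := by
    simp only [LT_apply, ← Grp.pd_ev, ← coe_sum]
    exact (congrArg _ (c.ct0.conserved n _ _ ⟨gS, rfl⟩)).trans (Completion.coe_zero)
  have b := wt_g0.bd
  refine Phi_inj (c := c) b g0_ne ?_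
  have := congrArg (fun z => I • c.bt.Phi G (c.bt.Phi (ft g0) z)) e
  simp only [_root_.map_sum, map_zero, smul_zero, Finset.smul_sum, (mu_T c).rel] at this ⊢
  refine (Finset.sum_congr rfl fun m _ => ?_).trans this
  rw [← c.bt.mul_apply b (hG m), ← c.bt.mul_apply h0 (bd_ft ⟨_, rfl⟩),
    ← ContinuousLinearMap.smul_apply, ← c.bt.smul _ (h0.mul (bd_ft ⟨_, rfl⟩))]
  congr 2
  funext p
  rw [← Grp.pd_ev, ft_pd ⟨_, rfl⟩]
  show ft g0 p * _ = I * (G p * (_ * ft g0 p))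
  linear_combination (G p * (eta m * p m : ℝ) * ft g0 p) * Complex.I_sq

variable {K : V → ℂ}

lemma zf_perp (hK : Ad 2 K) (A : Fin 2 → Fin 4) : inner ℂ c.Om (Zf c (LT c) K A) = 0 :=
  zfg_perp LT_perp hK A

theorem zf_ae [Fact c.can] (hK : Ad 2 K) (A : Fin 2 → Fin 4) :
    ∀ᵐ p ∂c.nu (Zf c (LT c) K A), p ∈ Fc := zfg_ae (mu_T c) LT_perp (by norm_num) hK A

lemma lt_ae [Fact c.can] (J : Fin 2 → Ix) (f : Sch) : ∀ᵐ p ∂c.nu (LT c J f), p ∈ Fc :=
  (mu_T c).ae LT_perp (by norm_num) J f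

end Two

/-- row TWO, without hypotheses -/
theorem two_thm (c : Ctx D) (h : c.can) : TWO c := by
  haveI : Fact c.can := ⟨h⟩
  obtain ⟨C, h0, e⟩ := Two.two_gen (Two.mu_T c) Two.LT_perp (by norm_num)
  refine ⟨C, h0, fun h k f ⟨g, hg⟩ => ?_⟩
  subst hg
  rw [Two.Tv_hk]
  refine (e _ g).trans (Two.wd_mono (ρ' := fun p => C * nn p h * nn p k * ‖ft (ev g) p‖ ^ 2)
    fun p _ => le_of_eq ?_)
  norm_num [mul_assoc]

theorem two_row (c : Ctx D) : T1 c → c.can → TWO c := fun _ => two_thm c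

end

end Vale.Agent.P352X.ZZ
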