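import Vale.Agent.P352X.R.TWO.Mu
import Vale.Agent.P352Z.R.ZC

/-!
# P352Z (port of P352X): covariant multiplets and their components in the moving null frame (helper21)
-/

set_option linter.all false

open MeasureTheory Measure Set Filter Topology
open scoped SchwartzMap ComplexConjugate NNReal ENNReal

namespace Vale.Agent.P352X.ZZ.Two

open Vale.Agent.P352.GF Vale.Agent.P352.BW Vale.Agent.P352.H496 Vale.Agent.P352.H755
open Vale.Agent.P352.H246 (In)
open Vale.Agent.P352X.Two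
open UniformSpace (Completion)
open Complex (I)

noncomputable section

variable {D : Type*} [NormedAddCommGroup D] [InnerProductSpace ℂ D] {c : Ctx D} {k : ℕ} {d : ℝ}
  {Λ : (Fin k → Ix) → Sch →L[ℂ] Completion D}

/-- covariant multiplets -/
def Mu (c : Ctx D) (d : ℝ) (Λ : (Fin k → Ix) → Sch →L[ℂ] Completion D) : Prop :=
  ∀ μ s L a (f g : Sch), 0 < s → IsLor L → (∀ x, g x = f (sim s L a x)) →
    Λ μ f = ∑ ν : Fin k → Ix, ((s ^ (4 - d) * ∏ i, L (ν i) (μ i) : ℝ) : ℂ) • Ug c.Q s L a (Λ ν g)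

lemma Mu.tr (h : Mu c d Λ) (μ : Fin k → Ix) (y : V) (f : Sch) :
    Λ μ (ST.tsl y f) = Ut c.Q y (Λ μ f) := by
  rw [h μ 1 one y _ f one_pos isLor_one fun x => (congrFun (Grp.tsl_sim y f) x).symm,
    Finset.sum_eq_single μ (fun ν _ hν => ?_) (by simp)]
  · simp [one, bas, Ut]
  · obtain ⟨i, hi⟩ := Function.ne_iff.1 hν
    rw [Finset.prod_eq_zero (Finset.mem_univ i) (by simp [one, bas, hi.symm])]
    simp

lemma Mu.rel (h : Mu c d Λ) (μ : Fin k → Ix) (f : Sch) :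
    c.bt.Phi (ft g0) (Λ μ f) = c.bt.Phi (ft (ev f)) (Λ μ gS) :=
  rel_clm (Λ μ) (fun y _ => h.tr μ y f) fun y _ => h.tr μ y gS

lemma Phi_sum {ι : Type*} [Fintype ι] (a : ι → ℂ) {F : ι → V → ℂ} (hF : ∀ i, SN.Bd (F i))
    (z : Completion D) : ∑ i, a i • c.bt.Phi (F i) z = c.bt.Phi (fun p => ∑ i, a i * F i p) z := by
  rw [c.bt.sum _ fun i _ => (hF i).smul (a i), ContinuousLinearMap.sum_apply]
  exact Finset.sum_congr rfl fun i _ => by rw [c.bt.smul _ (hF i)]; rfl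

/-- the contraction with vector fields -/
def Zs (c : Ctx D) (Λ : (Fin k → Ix) → Sch →L[ℂ] Completion D) (K : V → ℂ) (u : Fin k → V → V) :
    Completion D := ∑ J, c.bt.Phi (fun p => K p * sy (fun j => u j p) J) (Λ J gS)

lemma ug_ut {s : ℝ} {L : Ix → V} (hs : 0 < s) (hL : IsLor L) (y : V) :
    Ug c.Q s L 0 * Ut c.Q y = Ut c.Q (sim s L 0 y) * Ug c.Q s L 0 := by
  ext z
  simp only [ContinuousLinearMap.mul_apply, Br.Ut_apply, Ug_apply _ hs hL]
  exact Kin.Ue_tr c.bR hs hL 0 y z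

variable {s : ℝ} {L : Ix → V} {κ κ' : V → V} {K : V → ℂ}

lemma Mu.key (h : Mu c d Λ) (hs : 0 < s) (hL : IsLor L) (hk : Measurable κ)
    (hA : ∀ p y, mdot (κ p) y = mdot p (sim s L 0 y)) (h1 : ∀ p, κ (κ' p) = p)
    (h2 : ∀ p, κ' (κ p) = p) (μ : Fin k → Ix) :
    c.bt.Phi (fun p => ft g0 (κ p)) (Λ μ gS) = ∑ ν : Fin k → Ix,
      ((s ^ (-d) * ∏ i, L (ν i) (μ i) : ℝ) : ℂ) • c.bt.Phi (ft g0) (Ug c.Q s L 0 (Λ ν gS)) := by
  rw [h μ s L 0 gS _ hs hL (Grp.simS_apply hs hL 0 gS), _root_.map_sum]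
  refine Finset.sum_congr rfl fun ν _ => ?_
  rw [map_smul, ← Phi_W hk (ug_ut hs hL) hA wt_g0.bd, h.rel,
    Phi_W hk (ug_ut hs hL) hA (bd_ft ⟨_, rfl⟩), show (fun p => ft (ev (Grp.simS hs hL 0 gS)) (κ p)) =
      fun p => ((((s ^ 2) ^ 2)⁻¹ : ℝ) : ℂ) * ft g0 p from funext fun p => by
        rw [show ev (Grp.simS hs hL 0 gS) = fun z => g0 (sim s L 0 z) from
          funext (Grp.simS_apply hs hL 0 gS), Two.ft_conf (conf_sim hs hL) (q := p) fun z => by
            rw [← hA]], c.bt.smul _ wt_g0.bd, ContinuousLinearMap.smul_apply, smul_smul,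
    ← Complex.ofReal_mul, Real.rpow_sub hs, Real.rpow_neg hs.le,
    show (4 : ℝ) = (4 : ℕ) by norm_num, Real.rpow_natCast]
  congr 2
  field_simp

theorem Mu.zs_cov (h : Mu c d Λ) (hs : 0 < s) (hL : IsLor L) (hk : Measurable κ)
    (hA : ∀ p y, mdot (κ p) y = mdot p (sim s L 0 y)) (h1 : ∀ p, κ (κ' p) = p)
    (h2 : ∀ p, κ' (κ p) = p) {u : Fin k → V → V} {t : Fin k → ℝ}
    (hu : ∀ j p, u j p = t j • sim 1 L 0 (u j (κ p))) (hK : SN.Bd K)
    (ok : ∀ J, SN.Bd fun p => K p * sy (fun j => u j p) J) :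
    c.bt.Phi (fun p => K (κ p) * ft g0 (κ p)) (Zs c Λ K u) = ((s ^ (-d) * ∏ j, t j : ℝ) : ℂ) •
      c.bt.Phi (fun p => K p * ft g0 p) (Ug c.Q s L 0 (Zs c Λ K u)) := by
  have b := wt_g0.bd
  have e : ∀ μ, c.bt.Phi (fun p => K (κ p) * ft g0 (κ p))
      (c.bt.Phi (fun p => K p * sy (fun j => u j p) μ) (Λ μ gS)) = ∑ ν : Fin k → Ix,
      ((s ^ (-d) * ∏ i, L (ν i) (μ i) : ℝ) : ℂ) • c.bt.Phi (fun p => K (κ p) *
        (K p * sy (fun j => u j p) μ) * ft g0 p) (Ug c.Q s L 0 (Λ ν gS)) := fun μ => by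
    rw [c.bt.mul_apply (hK.comp hk) (b.comp hk), c.bt.comm (b.comp hk) (ok μ),
      h.key hs hL hk hA h1 h2, ← c.bt.mul_apply (hK.comp hk) (ok μ), _root_.map_sum]
    exact Finset.sum_congr rfl fun ν _ => by
      rw [map_smul, ← c.bt.mul_apply ((hK.comp hk).mul (ok μ)) b]
  simp only [Zs, _root_.map_sum, e, Finset.smul_sum]
  rw [Finset.sum_comm]
  refine Finset.sum_congr rfl fun ν _ => ?_
  rw [Phi_sum _ fun μ => ((hK.comp hk).mul (ok μ)).mul b, Phi_W hk (ug_ut hs hL) hA (ok ν),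
    ← c.bt.mul_apply (hK.mul b) ((ok ν).comp hk), ← ContinuousLinearMap.smul_apply,
    ← c.bt.smul _ ((hK.mul b).mul ((ok ν).comp hk))]
  congr 2
  funext p
  have := sy_cov hL t (fun j => u j (κ p)) ν
  simp only [← hu] at this
  calc _ = (s ^ (-d) : ℝ) * (K (κ p) * K p * ft g0 p) * ((∑ μ : Fin k → Ix, (∏ i, L (ν i) (μ i)) *
        sy (fun j => u j p) μ : ℝ) : ℂ) := by
        rw [Complex.ofReal_sum, Finset.mul_sum]
        exact Finset.sum_congr rfl fun μ _ => by push_cast; ring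
    _ = _ := by rw [this]; push_cast; ring

/-- the components in the moving frame -/
def Zf (c : Ctx D) (Λ : (Fin k → Ix) → Sch →L[ℂ] Completion D) (K : V → ℂ) (A : Fin k → Fin 4) :
    Completion D := Zs c Λ K fun j => fr (A j)

theorem Mu.vc (h : Mu c d Λ) (hK : Ad k K) (A : Fin k → Fin 4) :
    Vc c (fun p => K p * ft g0 p) (Zf c Λ K A) (d / 2 + ∑ j, xw (A j))
      (d / 2 + ∑ j, yw (A j)) where
  ga w := by
    obtain ⟨l1, l2⟩ := Grp.lga w
    have := h.zs_cov one_pos l1 (meas_gap (-w)) (κ' := gap w)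
      (fun p y => by rw [l2, md_gap_l]) (fun p => by simp [gap_gap]) (fun p => by simp [gap_gap])
      (u := fun j => fr (A j)) (t := fun _ => 1) (fun j p => by rw [l2, one_smul, ← fr_gap])
      hK.wt.bd (hK.ok A)
    simp only [Real.one_rpow, Finset.prod_const_one, mul_one, Complex.ofReal_one, one_smul] at this
    exact this.symm
  sc r s hr hs := by
    obtain ⟨l1, l2⟩ := Grp.lsc hr hs
    have h0 := Br.sc_pos hr hs
    have := h.zs_cov h0 l1 (meas_scp s r) (κ' := scp s⁻¹ r⁻¹)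
      (fun p y => by rw [l2, md_scp_l]) (fun p => by simp [scp_scp _ hs.le hr.le, hr.ne', hs.ne'])
      (fun p => by simp [scp_scp _ (inv_pos.2 hs).le (inv_pos.2 hr).le, hr.ne', hs.ne'])
      (u := fun j => fr (A j)) (t := fun j => (r ^ xw (A j) * s ^ yw (A j))⁻¹)
      (fun j p => by rw [fr_scp (A j) hr hs p, ← l2, sim_smul, inv_smul_smul₀ h0.ne'])
      hK.wt.bd (hK.ok A)
    have e : √(r * s) ^ (-d) = (r ^ (d / 2))⁻¹ * (s ^ (d / 2))⁻¹ := by
      rw [Real.sqrt_eq_rpow, ← Real.rpow_mul (mul_pos hr hs).le, Real.mul_rpow hr.le hs.le,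
        show 1 / 2 * -d = -(d / 2) by ring, Real.rpow_neg hr.le, Real.rpow_neg hs.le]
    rw [Zf, this, smul_smul, ← Complex.ofReal_mul, Finset.prod_inv_distrib, Finset.prod_mul_distrib,
      ← Real.rpow_sum_of_pos hr, ← Real.rpow_sum_of_pos hs, Real.rpow_add hr, Real.rpow_add hs, e]
    refine (one_smul ℂ _).symm.trans (congrArg₂ _ ?_ rfl)
    rw [← Complex.ofReal_one]
    congr 1
    field_simp

/-- **expansion in the moving frame** -/
theorem expand (hK : Ad k K) {S : Set V} {G : V → ℂ} (hG : Cp S G) (hS : S ⊆ {p | 0 < be p})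
    (h : Fin k → V) : c.bt.Phi (fun p => G p * K p) (∑ J, (sy h J : ℂ) • Λ J gS) =
      ∑ A, c.bt.Phi (fun p => G p * cfs h A p) (Zf c Λ K A) := by
  simp only [Zf, Zs, _root_.map_sum, map_smul]
  rw [Finset.sum_comm]
  refine Finset.sum_congr rfl fun J _ => ?_
  have := Phi_sum (c := c) (fun _ => 1) (fun A => (hG.cfs hS h A).1.mul (hK.ok A J)) (Λ J gS)
  simp only [one_smul, one_mul, c.bt.mul_apply (hG.cfs hS h _).1 (hK.ok _ J)] at this
  rw [this, ← ContinuousLinearMap.smul_apply, ← c.bt.smul _ (hG.1.mul hK.wt.bd)]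
  congr 2
  funext p
  obtain ⟨-, B, -, h2, h3⟩ := hG
  by_cases hp : p ∈ B
  · rw [sy_dec h J (ne_of_gt (hS (h2 hp))), Complex.ofReal_sum, Finset.sum_mul]
    exact Finset.sum_congr rfl fun A _ => by simp only [Two.cfs]; push_cast; ring
  · simp [h3 p hp]

end

end Vale.Agent.P352X.ZZ.Two
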